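import Vale.Agent.P216.MV337.ToX
import Vale.Agent.P216.B64.GoalsC

/-!
# P216-C, block C07: from the Moore-Lipschitz loops to the energy sublevels

`FLGenC` = `B64.XGenC` for the sets `FL M t`, `t > 0`, of Moore-Lipschitz free loops, and the
transfer `FLGenC → XGenC`.
-/

set_option linter.all false

namespace Vale.Agent.P216.H774

open Set BoundedContinuousFunction
open Vale.Agent.P216.B64 Vale.Agent.P216.AS Vale.Agent.P216.GM Vale.Agent.P216.MV337
open Vale.Agent.P216.H901 (SpIntl Hp)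
open Vale.Agent.P216.L250 (XE LM fn XE_mono fn_rev ext_fn fn_periodic)

/-- Compatible classes in the cohomology of the Moore free loops. -/
structure FLFam (M : Type) [MetricSpace M] (k : Type) [Field k] where
  g : ∀ (n : ℕ) (t : ℝ), HU k (FL M t) n
  res_g : ∀ n s t, 0 < s → ∀ (h : s ≤ t), hres k (FL_mono h) n (g n t) = g n s

/-- Output of the topology of the Moore free loops, for one field, general form. -/
structure FLGenC (M : Type) [MetricSpace M] (q : ℕ) (e : ℕ → ℕ) (s : ℤ) (B : ℝ) (k : Type)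
    [Field k] extends FLFam M k where
  span : ∀ n t, 0 < t → ∀ (h : FL M t ⊆ FL M (t + B)) (z : HU k (FL M (t + B)) n),
    ∃ c : k, hres k h n z = c • g n t
  /-- reversal -/
  rev_zero : ∀ t, 0 < t → ∀ f, RevP t f → ∀ h : UMap (FL M t) (FL M t) f,
    hpull k h 0 (g 0 t) = g 0 t
  rev_x : ∀ n t, 0 < t → 0 < n → n % 2 = q → ∀ f, RevP t f → ∀ h : UMap (FL M t) (FL M t) f,
    hpull k h n (g n t) = ((s : k) * (-1 : k) ^ (n / 2)) • g n t
  rev_y : ∀ n t, 0 < t → 0 < n → n % 2 ≠ q → ∀ f, RevP t f → ∀ h : UMap (FL M t) (FL M t) f,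
    hpull k h n (g n t) = ((s : k) * (-1 : k) ^ ((n + 1) / 2)) • g n t
  e_mono : StrictMono e
  e_par : ∀ i, e i % 2 = q
  e_ge : ∀ i, 3 ≤ e i
  /-- no class just below the degree `e i` -/
  gap : ∀ i t t', 0 < t → 0 < t' → g (e i) t ≠ 0 → g (e i - 1) t' = 0
  birth0 : ∀ t, 0 < t → B ≤ t → g (e 0) t ≠ 0
  birth : ∀ i t, 0 < t → g (e i) t ≠ 0 → g (e (i + 1)) (t + B) ≠ 0

section Moore

variable {M : Type} [MetricSpace M] [CompactSpace M]
  (I : SpIntl (fun t => XE M t) (fun _ => ∅) (fun t => FL M t) (fun _ => ∅) 1)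
  {k : Type} [Field k] {n : ℕ} {X Y : Set (LM M)} {s t u u' : ℝ} (F : FLFam M k)

/-- The key: independence of the levels. -/
theorem hpull_G (ht : 0 < t) (hX : X ⊆ XE M t) (hu : t + 1 ≤ u) {t' : ℝ} (ht' : 0 < t')
    (hX' : X ⊆ XE M t') (hu' : t' + 1 ≤ u')
    (h1 : UMap X (FL M u) (I.f t)) (h2 : UMap X (FL M u') (I.f t')) :
    hpull k h1 n (F.g n u) = hpull k h2 n (F.g n u') := by
  have key : ∀ {t t' u u' : ℝ}, 0 < t → X ⊆ XE M t → t + 1 ≤ u → X ⊆ XE M t' → t' + 1 ≤ u' →
      t ≤ t' → ∀ (h1 : UMap X (FL M u) (I.f t)) (h2 : UMap X (FL M u') (I.f t')),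
      hpull k h1 n (F.g n u) = hpull k h2 n (F.g n u') := by
    intro t t' u u' ht hX hu hX' hu' htt h1 h2
    have e1 := F.res_g n u (max u u') (by linarith) (le_max_left _ _)
    have e2 := F.res_g n u' (max u u') (by linarith) (le_max_right _ _)
    rw [← e1, ← e2, hpull_hres h1 (FL_mono (le_max_left _ _))
      (umf I ht hX (hu.trans (le_max_left _ _))),
      hpull_hres h2 (FL_mono (le_max_right _ _))
        (umf I (ht.trans_le htt) hX' (hu'.trans (le_max_right _ _)))]
    exact hpull_f I ht htt hX (hu'.trans (le_max_right _ _)) _ _ _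
  rcases le_total t t' with h | h
  · exact key ht hX hu hX' hu' h h1 h2
  · exact (key ht' hX' hu' hX hu h h2 h1).symm

/-- The generators. -/
noncomputable def gX (n : ℕ) (s : ℝ) : HU k (XL M s) n :=
  hpull k (umf I (t := max s 0 + 1) (by positivity) (XL_subset (by linarith)) le_rfl) n
    (F.g n (max s 0 + 1 + 1))

theorem gX_eq (ht : 0 < t) (hX : XL M s ⊆ XE M t) (hu : t + 1 ≤ u)
    (h : UMap (XL M s) (FL M u) (I.f t)) : gX I F n s = hpull k h n (F.g n u) :=
  hpull_G I F (by positivity) (XL_subset (by linarith)) le_rfl ht hX hu _ _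

/-- `gX` is the image of a class of a positive level. -/
theorem exists_level {n : ℕ} {s : ℝ} (h : gX I F n s ≠ 0) : ∃ t, 0 < t ∧ F.g n t ≠ 0 :=
  ⟨max s 0 + 1 + 1, by positivity, fun h0 => h (by rw [gX, h0, map_zero])⟩

theorem gX_zero (hs : 1 < s) (h : gX I F n s = 0) : F.g n (s - 1) = 0 := by
  have h1 : XL M s ⊆ XE M (s - 1 + 1) := XL_subset (max_le (by linarith) (by linarith))
  have h1' : XE M (s - 1 + 1) ⊆ XL M s := by rw [XL_eq (by linarith), sub_add_cancel]
  rw [gX_eq I F (by linarith) h1 le_rfl (umf I (by linarith) h1 le_rfl)] at h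
  have h2 : hpull k (umf I (t := s - 1 + 1) (by linarith) le_rfl le_rfl) n
      (F.g n (s - 1 + 1 + 1)) = 0 := by
    rw [← hres_hpull (umf I (by linarith) h1 le_rfl) h1', h, map_zero]
  have h3 := hpull_gf I (t := s - 1) (by linarith) (umg I (by linarith) le_rfl le_rfl)
    (umf I (by linarith) le_rfl le_rfl) le_rfl (F.g n (s - 1 + 1 + 1))
  rw [h2, map_zero] at h3
  rw [← F.res_g n (s - 1) (s - 1 + 1 + 1) (by linarith) (by linarith)]
  exact h3.symm

theorem gX_rev (hI : ∀ t, 0 < t → ∀ w ∈ FL M t, ∀ s ∈ Icc (0:ℝ) 1, fn (I.g t w) s = w (t * s))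
    {c : k} (hc : ∀ t, 0 < t → ∀ f, RevP t f → ∀ h : UMap (FL M t) (FL M t) f,
      hpull k h n (F.g n t) = c • F.g n t) (s : ℝ) :
    hpull k (umap_rev s) n (gX I F n s) = c • gX I F n s := by
  -- the level `v` with `XL M s ⊆ XE M v`
  obtain ⟨v, hv⟩ : ∃ v, v = max s 0 + 1 := ⟨_, rfl⟩
  have hv0 : 0 < v := by rw [hv]; positivity
  have hsv : XL M s ⊆ XE M v := XL_subset (by linarith)
  have hvv : XE M v ⊆ XE M (v + 1 + 1) := XE_mono hv0.le (by linarith)
  have hrev : ∀ t, UMap (XE M t) (XE M t) (L250.rev : LM M → LM M) := fun t =>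
    ⟨fun _ hg => L250.rev_mem hg, fun e => e.elim, fun ε hε =>
      ⟨ε, hε, fun g _ g' _ h => by rwa [L250.isometry_rev.dist_eq]⟩⟩
  -- the class `y` on `XE M (v + 2)`
  set y : HU k (XE M (v + 1 + 1)) n :=
    hpull k (umf I (by linarith) le_rfl le_rfl) n (F.g n (v + 1 + 1 + 1)) with hy
  have hg : UMap (FL M (v + 1)) (XE M (v + 1 + 1)) (I.g (v + 1)) :=
    umg I (by linarith) le_rfl le_rfl
  have hf : UMap (XE M v) (FL M (v + 1)) (I.f v) := umf I hv0 le_rfl le_rfl
  have B1 : hpull k hg n y = F.g n (v + 1) := by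
    rw [hy, hpull_gf I (by linarith) hg _ le_rfl, F.res_g n _ _ (by linarith) (by linarith)]
  have C1 : hpull k hg n (hpull k (hrev _) n y) = hpull k hg n (c • y) := by
    rw [hpull_hpull _ _ ((hrev _).comp hg),
      ← hpull_congr (hg.comp (umap_revb (v + 1))) _ (g_rev I hI (by linarith)),
      ← hpull_hpull hg (umap_revb (v + 1)), B1, map_smul, B1]
    exact hc (v + 1) (by linarith) _ (revP_revb _) _
  have D1 : hres k hvv n (hpull k (hrev _) n y) = hres k hvv n (c • y) := by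
    rw [← hpull_fg I hv0 le_rfl le_rfl le_rfl hf hg hvv, C1,
      hpull_fg I hv0 le_rfl le_rfl le_rfl hf hg hvv]
  have hsy : gX I F n s = hres k (hsv.trans hvv) n y := by
    rw [hy, hres_hpull _ _ (umf I (by linarith) (hsv.trans hvv) le_rfl)]
    exact gX_eq I F (by linarith) (hsv.trans hvv) le_rfl _
  have E1 := congrArg (hres k hsv n) D1
  rw [res_res, res_res, map_smul] at E1
  rw [hsy, hpull_hres (umap_rev s) (hsv.trans hvv)
    ((hrev _).mono (hsv.trans hvv) fun x hx => (hsv.trans hvv) ((umap_rev s).mapsX hx))]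
  rw [← E1]
  exact (hres_hpull _ _ _ y).symm

end Moore

section Out

variable {M : Type} [MetricSpace M] [CompactSpace M]
  (I : SpIntl (fun t => XE M t) (fun _ => ∅) (fun t => FL M t) (fun _ => ∅) 1)
  {q : ℕ} {e : ℕ → ℕ} {σ : ℤ} {B : ℝ} {k : Type} [Field k] (F : FLGenC M q e σ B k)

/-- **The transfer.** -/
noncomputable def xGenC (hB : 0 < B)
    (hI : ∀ t, 0 < t → ∀ w ∈ FL M t, ∀ s ∈ Icc (0:ℝ) 1, fn (I.g t w) s = w (t * s)) :
    XGenC M q e σ (B + 3) k where
  g := gX I F.toFLFam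
  res_g n s t h := by
    have hX : XL M s ⊆ XE M (max t 0 + 1) := (XL_mono h).trans (XL_subset (by linarith))
    rw [gX, hres_hpull _ _ (umf I (by positivity) hX le_rfl)]
    exact (gX_eq I F.toFLFam (by positivity) hX le_rfl _).symm
  span n t ht h z := by
    have ht1 : 0 < t + 1 := by linarith
    have hXt : XL M t ⊆ XE M (t + 1) := XL_subset (max_le (by linarith) (by linarith))
    have hY : XE M (t + 1 + 1 + B + 1) ⊆ XL M (t + (B + 3)) := by
      rw [XL_eq (by linarith)]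
      exact XE_mono (by linarith) (by linarith)
    have hg : UMap (FL M (t + 1 + 1 + B)) (XL M (t + (B + 3))) (I.g (t + 1 + 1 + B)) :=
      umg I (by linarith) le_rfl hY
    have hg' : UMap (FL M (t + 1 + 1)) (XL M (t + (B + 3))) (I.g (t + 1 + 1 + B)) :=
      umg I (by linarith) (by linarith) hY
    have hf : UMap (XL M t) (FL M (t + 1 + 1)) (I.f (t + 1)) := umf I ht1 hXt le_rfl
    obtain ⟨c, hc⟩ := F.span n (t + 1 + 1) (by linarith) (FL_mono (by linarith))
      (hpull k hg n z)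
    refine ⟨c, ?_⟩
    rw [hres_hpull _ _ hg'] at hc
    have := congrArg (hpull k hf n) hc
    rw [hpull_fg I ht1 hXt (by linarith) hY hf hg' h, map_smul] at this
    rw [this, gX_eq I F.toFLFam ht1 hXt le_rfl hf]
  rev_zero s := by
    have := gX_rev I F.toFLFam hI (c := 1) (n := 0) (fun t ht f hf h => by
      rw [one_smul]; exact F.rev_zero t ht f hf h) s
    rw [this, one_smul]
  rev_x n s h0 hn := gX_rev I F.toFLFam hI (fun t ht => F.rev_x n t ht h0 hn) s
  rev_y n s h0 hn := gX_rev I F.toFLFam hI (fun t ht => F.rev_y n t ht h0 hn) s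
  e_mono := F.e_mono
  e_par := F.e_par
  e_ge := F.e_ge
  gap i t t' h := by
    obtain ⟨v, hv, hne⟩ := exists_level I F.toFLFam h
    by_contra h'
    obtain ⟨v', hv', hne'⟩ := exists_level I F.toFLFam h'
    exact hne' (F.gap i v v' hv hv' hne)
  birth0 t ht h := by
    have h1 := gX_zero I F.toFLFam (by linarith) h
    exact F.birth0 (t - 1) (by linarith) (by linarith) h1
  birth i t ht h h' := by
    have h1 := gX_zero I F.toFLFam (by linarith) h'
    rw [show t + (B + 3) - 1 = t + 1 + 1 + B by ring] at h1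
    refine F.birth i (t + 1 + 1) (by linarith) (fun h2 => h ?_) h1
    have hXt : XL M t ⊆ XE M (t + 1) := XL_subset (max_le (by linarith) (by linarith))
    rw [gX_eq I F.toFLFam (by linarith) hXt le_rfl (umf I (by linarith) hXt le_rfl), h2, map_zero]

end Out

/-- Output of the topology of the Moore free loops, all fields with `2 ≠ 0`. -/
def FLCGoal (M : Type) [MetricSpace M] (e : ℕ → ℕ) : Prop := ∀ ρ : ℝ, 0 < ρ → LS.UniqSeg M ρ →
  ∃ B : ℝ, 0 < B ∧ ∀ (k : Type) [Field k], (2 : k) ≠ 0 → Nonempty (FLGenC M 1 e 1 B k)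

/-- **C07, transfer.** -/
theorem xcGoal_of (hM : StMoore) {M : Type} [MetricSpace M] [CompactSpace M] {e : ℕ → ℕ}
    (hF : FLCGoal M e) : XCGoal M e := by
  intro ρ hρ hs
  obtain ⟨B, hB, hF'⟩ := hF ρ hρ hs
  obtain ⟨I, hI⟩ := hM M ρ hρ hs 1 one_pos
  refine ⟨B + 3, by linarith, fun k _ h2 => ?_⟩
  obtain ⟨F⟩ := hF' k h2
  exact ⟨xGenC I F hB hI⟩

end Vale.Agent.P216.H774
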