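import Vale.Agent.P216.H754B.Fl
import Vale.Agent.P216.H894.Slots
import Vale.Agent.P216.H774.ToXC

/-!
# P216-C, block C07: `FLGenC` from the persistence modules `H^q(FL M t)`
-/

set_option linter.all false

namespace Vale.Agent.P216.H774

open Set BoundedContinuousFunction
open Vale.Agent.P216.H754B Vale.Agent.P216.AS Vale.Agent.P216.H901 Vale.Agent.P216.PS
open Vale.Agent.P216.MV337 Vale.Agent.P216.B64
open Vale.Agent.P216.H894 (sgn)

/-- **The output at the level of persistence modules.** -/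
structure PMOutC {k : Type} [Field k] (X : ℕ → PM k) (OX : ∀ q, PMOp (X q)) (e : ℕ → ℕ)
    (B : ℝ) where
  g : ∀ q, (X q).Fam
  line : ∀ q, (X q).Line (g q) B
  rev : ∀ q t ht, (OX q).r t ht ((g q).z t ht) = sgn k q • (g q).z t ht
  gap : ∀ i t ht, (g (e i - 1)).z t ht = 0
  birth0 : ∀ t ht, B ≤ t → (g (e 0)).z t ht ≠ 0
  birth : ∀ i s t hs ht, s + B ≤ t → (g (e i)).z s hs ≠ 0 → (g (e (i + 1))).z t ht ≠ 0

/-- The reversal on the modules `H^q(FL M t)`. -/
noncomputable abbrev opXP (k : Type) [Field k] (M : Type) [MetricSpace M] (q : ℕ) :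
    PMOp (XP k M q) :=
  (evOp.sp sb_self sb_empty fun _ => empty_subset _).opa k mono_FL q

section Out

variable {M : Type} [MetricSpace M] {e : ℕ → ℕ} {B : ℝ} {k : Type} [Field k]
  (P : PMOutC (fun q => XP k M q) (opXP k M) e B)

/-- The generators, for all real `t`. -/
noncomputable def gg (q : ℕ) (t : ℝ) : HU k (FL M t) q :=
  if ht : 0 < t then (P.g q).z t ht else (0 : HU k (FL M t) q)

theorem gg_eq (q : ℕ) (t : ℝ) (ht : 0 < t) : gg P q t = (P.g q).z t ht := by
  unfold gg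
  exact dif_pos ht

theorem gg_rev (q : ℕ) (t : ℝ) (ht : 0 < t) (f : (ℝ →ᵇ M) → (ℝ →ᵇ M)) (hf : RevP t f)
    (h : UMap (FL M t) (FL M t) f) : hpull k h q (gg P q t) = sgn k q • gg P q t := by
  obtain rfl := revP_eq hf
  rw [gg_eq P q t ht]
  exact P.rev q t ht

/-- **`FLGenC` from `PMOutC`.** -/
noncomputable def flGenC (hB : 0 ≤ B) (h1 : StrictMono e) (h2 : ∀ i, e i % 2 = 1)
    (h3 : ∀ i, 3 ≤ e i) : FLGenC M 1 e 1 B k where
  g := gg P
  res_g q s t hs h := by
    rw [gg_eq P q s hs, gg_eq P q t (hs.trans_le h)]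
    exact (P.g q).comp s t hs h
  span q t ht h z := by
    obtain ⟨a, ha⟩ := P.line q t (t + B) ht (by linarith) le_rfl z
    refine ⟨a, ?_⟩
    rw [gg_eq P q t ht]
    exact ha
  rev_zero t ht f hf h := by
    rw [gg_rev P 0 t ht f hf h]
    simp [sgn]
  rev_x n t ht h0 hn f hf h := by
    rw [gg_rev P n t ht f hf h, Int.cast_one, one_mul]
    rfl
  rev_y n t ht h0 hn f hf h := by
    rw [gg_rev P n t ht f hf h, Int.cast_one, one_mul]
    unfold sgn
    rw [show (n + 1) / 2 = n / 2 by omega]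
  e_mono := h1
  e_par := h2
  e_ge := h3
  gap i t t' ht ht' _ := by
    rw [gg_eq P _ t' ht']
    exact P.gap i t' ht'
  birth0 t ht h := by
    rw [gg_eq P _ t ht]
    exact P.birth0 t ht h
  birth i t ht h := by
    rw [gg_eq P _ t ht] at h
    rw [gg_eq P _ (t + B) (by linarith)]
    exact P.birth i t (t + B) ht (by linarith) le_rfl h

end Out

end Vale.Agent.P216.H774
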